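import Mathlib

/-! # P110: the autocorrelation identity -/

namespace P110

open Finset

/-- autocorrelations -/
theorem autocorr_real (N : ℕ) (ε : ℕ → ℝ) (hε : ∀ k, k < N → ε k ^ 2 = 1) (θ : ℝ) :
    (∑ k ∈ range N, ε k * Real.cos (k * θ)) ^ 2 + (∑ k ∈ range N, ε k * Real.sin (k * θ)) ^ 2
      = N + 2 * ∑ m ∈ Ico 1 N, (∑ j ∈ range (N - m), ε j * ε (j + m)) * Real.cos (m * θ) := by
  induction N with
  | zero => simp
  | succ N ih =>
    have ih' := ih fun k hk => hε k (by omega)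
    rw [sum_range_succ, sum_range_succ]
    have hN := hε N (Nat.lt_succ_self N)
    have hcs := Real.sin_sq_add_cos_sq ((N : ℝ) * θ)
    have e1 : ∑ m ∈ Ico 1 (N + 1), (∑ j ∈ range (N + 1 - m), ε j * ε (j + m)) * Real.cos (m * θ)
        = ∑ m ∈ Ico 1 (N + 1), (∑ j ∈ range (N - m), ε j * ε (j + m)) * Real.cos (m * θ)
          + ∑ m ∈ Ico 1 (N + 1), ε (N - m) * ε N * Real.cos (m * θ) := by
      rw [← sum_add_distrib]
      refine sum_congr rfl fun m hm => ?_
      rw [mem_Ico] at hm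
      have h1 : N + 1 - m = (N - m) + 1 := by omega
      rw [h1, sum_range_succ]
      have h2 : N - m + m = N := by omega
      rw [h2]
      ring
    have e2 : ∑ m ∈ Ico 1 (N + 1), (∑ j ∈ range (N - m), ε j * ε (j + m)) * Real.cos (m * θ)
        = ∑ m ∈ Ico 1 N, (∑ j ∈ range (N - m), ε j * ε (j + m)) * Real.cos (m * θ) := by
      rcases Nat.eq_zero_or_pos N with h0 | h0
      · subst h0; simp
      · rw [sum_Ico_succ_top h0]
        simp
    have e3 : ∑ m ∈ Ico 1 (N + 1), ε (N - m) * ε N * Real.cos (m * θ)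
        = ∑ j ∈ range N, ε j * ε N * Real.cos (((N : ℝ) - j) * θ) := by
      rw [sum_Ico_eq_sum_range, Nat.add_sub_cancel,
        ← sum_range_reflect (fun j => ε j * ε N * Real.cos (((N : ℝ) - j) * θ)) N]
      refine sum_congr rfl fun i hi => ?_
      rw [mem_range] at hi
      have h1 : N - (1 + i) = N - 1 - i := by omega
      have h2 : ((1 + i : ℕ) : ℝ) = (N : ℝ) - ((N - 1 - i : ℕ) : ℝ) := by
        have : (1 + i) + (N - 1 - i) = N := by omega
        have h3 : ((1 + i : ℕ) : ℝ) + ((N - 1 - i : ℕ) : ℝ) = (N : ℝ) := by exact_mod_cast this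
        linarith
      rw [h1, h2]
    have e4 : ∑ j ∈ range N, ε j * ε N * Real.cos (((N : ℝ) - j) * θ)
        = ε N * Real.cos (N * θ) * (∑ k ∈ range N, ε k * Real.cos (k * θ))
          + ε N * Real.sin (N * θ) * (∑ k ∈ range N, ε k * Real.sin (k * θ)) := by
      rw [mul_sum, mul_sum, ← sum_add_distrib]
      refine sum_congr rfl fun j _ => ?_
      rw [sub_mul, Real.cos_sub]
      ring
    rw [e1, e2, e3, e4]
    push_cast
    linear_combination ih' + hN + (ε N) ^ 2 * hcs

/-- the same for the complex polynomial on the unit circle -/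
theorem autocorr (N : ℕ) (ε : ℕ → ℝ) (hε : ∀ k, k < N → ε k ^ 2 = 1) (θ : ℝ) :
    ‖∑ k ∈ range N, (ε k : ℂ) * Complex.exp (θ * Complex.I) ^ k‖ ^ 2
      = N + 2 * ∑ m ∈ Ico 1 N, (∑ j ∈ range (N - m), ε j * ε (j + m)) * Real.cos (m * θ) := by
  rw [← autocorr_real N ε hε θ, ← Complex.normSq_eq_norm_sq, Complex.normSq_apply]
  have h : ∀ k : ℕ, (ε k : ℂ) * Complex.exp (θ * Complex.I) ^ k =
      ((ε k * Real.cos (k * θ) : ℝ) : ℂ) + ((ε k * Real.sin (k * θ) : ℝ) : ℂ) * Complex.I := by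
    intro k
    rw [← Complex.exp_nat_mul, ← mul_assoc, Complex.exp_mul_I]
    push_cast
    ring
  simp only [h, sum_add_distrib, ← sum_mul, ← Complex.ofReal_sum]
  generalize (∑ k ∈ range N, ε k * Real.cos (k * θ)) = A
  generalize (∑ k ∈ range N, ε k * Real.sin (k * θ)) = B
  simp only [Complex.add_re, Complex.add_im, Complex.ofReal_re, Complex.ofReal_im,
    Complex.mul_re, Complex.mul_im, Complex.I_re, Complex.I_im]
  ring

end P110
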