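import Mathlib

/-! P110: a lower bound for the odd harmonic sum -/

namespace P110

theorem oddlog_step (x : ℝ) (hx : 0 < x) : Real.log ((x + 2) / x) ≤ 2 / x := by
  have h := Real.log_le_sub_one_of_pos (show 0 < (x + 2) / x by positivity)
  have e : (x + 2) / x - 1 = 2 / x := by field_simp; ring
  linarith

theorem oddlog_odd (t : ℕ) : Real.log (2 * t + 1) / 2
    ≤ ∑ m ∈ Finset.Ico 1 (2 * t + 1), (if m % 2 = 1 then (1 : ℝ) / m else 0) := by
  induction t with
  | zero => simp
  | succ t ih =>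
    have e : 2 * (t + 1) + 1 = (2 * t + 1) + 1 + 1 := by ring
    rw [e, Finset.sum_Ico_succ_top (by omega), Finset.sum_Ico_succ_top (by omega)]
    have h1 : (2 * t + 1) % 2 = 1 := by omega
    have h2 : ¬ ((2 * t + 1 + 1) % 2 = 1) := by omega
    rw [if_pos h1, if_neg h2]
    have h3 := oddlog_step (2 * (t : ℝ) + 1) (by positivity)
    have h4 : Real.log ((2 * (t : ℝ) + 1 + 2) / (2 * t + 1))
        = Real.log (2 * (t : ℝ) + 1 + 2) - Real.log (2 * t + 1) :=
      Real.log_div (by positivity) (by positivity)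
    rw [h4] at h3
    push_cast
    have e2 : (2 * ((t : ℝ) + 1) + 1) = 2 * (t : ℝ) + 1 + 2 := by ring
    rw [e2]
    have e3 : (2 : ℝ) / (2 * (t : ℝ) + 1) = 2 * (1 / (2 * (t : ℝ) + 1)) := by ring
    rw [e3] at h3
    linarith

theorem oddlog (N : ℕ) (hN : 1 ≤ N) : Real.log N / 2
    ≤ ∑ m ∈ Finset.Ico 1 N, (if m % 2 = 1 then (1 : ℝ) / m else 0) := by
  obtain ⟨t, ht | ht⟩ := Nat.even_or_odd' N
  · -- `N = 2 t`, `t ≥ 1`
    obtain ⟨s, rfl⟩ : ∃ s, t = s + 1 := ⟨t - 1, by omega⟩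
    have e : N = (2 * s + 1) + 1 := by omega
    subst e
    rw [Finset.sum_Ico_succ_top (by omega), if_pos (by omega)]
    have h1 := oddlog_odd s
    have hx : (0 : ℝ) < 2 * (s : ℝ) + 1 := by positivity
    have h2 := Real.log_le_sub_one_of_pos (show 0 < (2 * (s : ℝ) + 1 + 1) / (2 * s + 1) by positivity)
    rw [Real.log_div (by positivity) hx.ne'] at h2
    have e2 : (2 * (s : ℝ) + 1 + 1) / (2 * s + 1) - 1 = 1 / (2 * (s : ℝ) + 1) := by
      field_simp; ring
    rw [e2] at h2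
    have h3 : 0 < 1 / (2 * (s : ℝ) + 1) := by positivity
    push_cast
    linarith
  · subst ht
    have := oddlog_odd t
    push_cast
    exact this

end P110
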