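import Vale.Agent.P110.Toep

namespace P110

open Finset

/-- Aperiodic autocorrelation at lag `k` of the first `N` terms. -/
noncomputable def ac (N : ℕ) (ε : ℕ → ℝ) (k : ℕ) : ℝ := ∑ i ∈ range (N - k), ε i * ε (i + k)

theorem quad_shift (N k : ℕ) (g : ℕ → ℕ → ℝ) :
    ∑ i ∈ range N, ∑ i' ∈ range N, (if i' = i + k then g i i' else 0) =
      ∑ i ∈ range (N - k), g i (i + k) := by
  have h : ∀ i ∈ range N, ∑ i' ∈ range N, (if i' = i + k then g i i' else 0) =
      if i + k ∈ range N then g i (i + k) else 0 := by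
    intro i _
    rw [sum_ite_eq' (range N) (i + k) (fun i' => g i i')]
  rw [sum_congr rfl h, ← sum_filter]
  refine sum_congr ?_ fun _ _ => rfl
  ext i
  simp only [mem_filter, mem_range]
  omega

theorem quad_corr (N : ℕ) (ε : ℕ → ℝ) (j l : ℕ) :
    ∑ i ∈ range N, ∑ i' ∈ range N, (if i' + l = i + j then ε i * ε i' else 0) =
      ac N ε (if j ≤ l then l - j else j - l) := by
  unfold ac
  split_ifs with h
  · rw [sum_comm, ← quad_shift N (l - j) (fun a b => ε a * ε b)]
    refine sum_congr rfl fun i _ => sum_congr rfl fun i' _ => ?_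
    by_cases h1 : i + l = i' + j
    · have h2 : i' = i + (l - j) := by omega
      rw [if_pos h1, if_pos h2, mul_comm]
    · have h2 : ¬ i' = i + (l - j) := by omega
      rw [if_neg h1, if_neg h2]
  · rw [← quad_shift N (j - l) (fun a b => ε a * ε b)]
    refine sum_congr rfl fun i _ => sum_congr rfl fun i' _ => ?_
    by_cases h1 : i' + l = i + j
    · have h2 : i' = i + (j - l) := by omega
      rw [if_pos h1, if_pos h2]
    · have h2 : ¬ i' = i + (j - l) := by omega
      rw [if_neg h1, if_neg h2]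

theorem quad_double (N : ℕ) (ε : ℕ → ℝ) (n : ℕ) (x : ℕ → ℝ) :
    ∑ m ∈ range (N + n), (∑ i ∈ range N, ∑ j ∈ range n,
      (if m = i + j then ε i * x j else 0)) ^ 2 =
    Q n (fun j l => ac N ε (if j ≤ l then l - j else j - l)) x := by
  have h1 : ∑ m ∈ range (N + n), (∑ i ∈ range N, ∑ j ∈ range n,
      (if m = i + j then ε i * x j else 0)) ^ 2 =
      ∑ i ∈ range N, ∑ j ∈ range n, ε i * x j *
        (∑ i' ∈ range N, ∑ l ∈ range n, (if i + j = i' + l then ε i' * x l else 0)) := by
    have e1 : ∀ m ∈ range (N + n), (∑ i ∈ range N, ∑ j ∈ range n,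
        (if m = i + j then ε i * x j else 0)) ^ 2 =
        ∑ i ∈ range N, ∑ j ∈ range n, (if m = i + j then ε i * x j *
          (∑ i' ∈ range N, ∑ l ∈ range n, (if m = i' + l then ε i' * x l else 0)) else 0) := by
      intro m _
      rw [sq, sum_mul]
      refine sum_congr rfl fun i _ => ?_
      rw [sum_mul]
      refine sum_congr rfl fun j _ => ?_
      split_ifs
      · rfl
      · rw [zero_mul]
    rw [sum_congr rfl e1, sum_comm]
    refine sum_congr rfl fun i hi => ?_
    rw [sum_comm]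
    refine sum_congr rfl fun j hj => ?_
    rw [sum_ite_eq' (range (N + n)) (i + j) (fun m => ε i * x j *
      (∑ i' ∈ range N, ∑ l ∈ range n, (if m = i' + l then ε i' * x l else 0))), if_pos]
    rw [mem_range] at hi hj ⊢
    omega
  rw [h1]
  unfold Q
  have h2 : ∀ j ∈ range n, ∀ l ∈ range n,
      ac N ε (if j ≤ l then l - j else j - l) * x j * x l =
      ∑ i ∈ range N, ∑ i' ∈ range N, (if i' + l = i + j then ε i * ε i' else 0) * x j * x l := by
    intro j _ l _
    rw [← quad_corr N ε j l, sum_mul, sum_mul]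
    refine sum_congr rfl fun i _ => ?_
    rw [sum_mul, sum_mul]
  rw [sum_congr rfl fun j hj => sum_congr rfl fun l hl => h2 j hj l hl]
  rw [sum_comm]
  refine sum_congr rfl fun j _ => ?_
  rw [sum_comm (s := range n) (t := range N)]
  refine sum_congr rfl fun i _ => ?_
  rw [mul_sum, sum_comm (s := range n) (t := range N)]
  refine sum_congr rfl fun i' _ => ?_
  rw [mul_sum]
  refine sum_congr rfl fun l _ => ?_
  by_cases h : i' + l = i + j
  · rw [if_pos h, if_pos h.symm]; ring
  · rw [if_neg h, if_neg (fun h' => h h'.symm)]; ring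

/-- Mean over the unit circle of `|P|² |X|²` as a Toeplitz form. -/
theorem quad (N : ℕ) (ε : ℕ → ℝ) (n : ℕ) (x : ℕ → ℝ) :
    Real.circleAverage (fun z : ℂ => ‖∑ i ∈ range N, (ε i : ℂ) * z ^ i‖ ^ 2 *
      ‖∑ j ∈ range n, (x j : ℂ) * z ^ j‖ ^ 2) 0 1 =
    Q n (fun j l => ac N ε (if j ≤ l then l - j else j - l)) x := by
  rw [← quad_double]
  let W : Polynomial ℂ := (∑ i ∈ range N, Polynomial.C (ε i : ℂ) * Polynomial.X ^ i) *
    (∑ j ∈ range n, Polynomial.C (x j : ℂ) * Polynomial.X ^ j)
  have hW : ∀ z : ℂ, ‖W.eval z‖ ^ 2 = ‖∑ i ∈ range N, (ε i : ℂ) * z ^ i‖ ^ 2 *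
      ‖∑ j ∈ range n, (x j : ℂ) * z ^ j‖ ^ 2 := by
    intro z
    simp only [W, Polynomial.eval_mul, Polynomial.eval_finsetSum, Polynomial.eval_C,
      Polynomial.eval_pow, Polynomial.eval_X, norm_mul, mul_pow]
  have hfun : (fun z : ℂ => ‖∑ i ∈ range N, (ε i : ℂ) * z ^ i‖ ^ 2 *
      ‖∑ j ∈ range n, (x j : ℂ) * z ^ j‖ ^ 2) = fun z => ‖W.eval z‖ ^ 2 := by
    funext z
    rw [hW]
  rw [hfun, ← Polynomial.sum_sq_norm_coeff_eq_circleAverage]
  have hc : ∀ m, W.coeff m = ((∑ i ∈ range N, ∑ j ∈ range n,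
      (if m = i + j then ε i * x j else 0) : ℝ) : ℂ) := by
    intro m
    have hexp : W = ∑ i ∈ range N, ∑ j ∈ range n,
        Polynomial.C ((ε i : ℂ) * (x j : ℂ)) * Polynomial.X ^ (i + j) := by
      simp only [W]
      rw [sum_mul]
      refine sum_congr rfl fun i _ => ?_
      rw [mul_sum]
      refine sum_congr rfl fun j _ => ?_
      rw [Polynomial.C_mul, pow_add]
      ring
    rw [hexp, Polynomial.finsetSum_coeff]
    push_cast
    refine sum_congr rfl fun i _ => ?_
    rw [Polynomial.finsetSum_coeff]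
    refine sum_congr rfl fun j _ => ?_
    rw [Polynomial.coeff_C_mul_X_pow]
    split_ifs <;> simp
  have hn : ∀ m, ‖W.coeff m‖ ^ 2 = (∑ i ∈ range N, ∑ j ∈ range n,
      (if m = i + j then ε i * x j else 0)) ^ 2 := by
    intro m
    rw [hc m, Complex.norm_real, Real.norm_eq_abs, sq_abs]
  rw [sum_congr rfl fun m _ => hn m]
  refine sum_subset ?_ ?_
  · intro m hm
    rw [Polynomial.mem_support_iff, hc m] at hm
    by_contra hcon
    apply hm
    rw [mem_range] at hcon
    have : ∑ i ∈ range N, ∑ j ∈ range n, (if m = i + j then ε i * x j else 0) = 0 := by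
      refine sum_eq_zero fun i hi => sum_eq_zero fun j hj => ?_
      rw [mem_range] at hi hj
      rw [if_neg (by omega)]
    rw [this, Complex.ofReal_zero]
  · intro m _ hm
    rw [Polynomial.notMem_support_iff] at hm
    rw [← hn m, hm, norm_zero]
    norm_num

end P110
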