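import Vale.Agent.P110.Window
import Vale.Agent.P110.Quad
import Vale.Agent.P110.OddLog

namespace P110

open Finset

/-- Autocorrelations with an odd number of terms are odd integers, so at least one in size. -/
lemma ac_odd (N : ℕ) (ε : ℕ → ℝ) (hε : ∀ k, ε k = 1 ∨ ε k = -1) (k : ℕ) (ho : (N - k) % 2 = 1) :
    1 ≤ |ac N ε k| := by
  have key : ∀ m : ℕ, ∃ t : ℤ, ∑ i ∈ range m, ε i * ε (i + k) = (t : ℝ) ∧ t % 2 = (m : ℤ) % 2 := by
    intro m
    induction m with
    | zero => exact ⟨0, by simp, by simp⟩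
    | succ m ih =>
      obtain ⟨t, ht, ht2⟩ := ih
      have h : ε m * ε (m + k) = 1 ∨ ε m * ε (m + k) = -1 := by
        rcases hε m with h | h <;> rcases hε (m + k) with h' | h' <;> rw [h, h'] <;> norm_num
      rcases h with h | h
      · refine ⟨t + 1, ?_, ?_⟩
        · rw [sum_range_succ, ht, h]; push_cast; ring
        · push_cast; omega
      · refine ⟨t - 1, ?_, ?_⟩
        · rw [sum_range_succ, ht, h]; push_cast; ring
        · push_cast; omega
  obtain ⟨t, ht, ht2⟩ := key (N - k)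
  have ht3 : ac N ε k = (t : ℝ) := ht
  rw [ht3]
  have h1 : 1 ≤ |t| := by
    apply Int.one_le_abs
    intro h0
    rw [h0] at ht2
    omega
  have h2 : ((1 : ℤ) : ℝ) ≤ ((|t| : ℤ) : ℝ) := by exact_mod_cast h1
  rw [Int.cast_abs] at h2
  simpa using h2

/-- The main inequality for banded positive semidefinite Toeplitz forms. -/
lemma core (N : ℕ) (hN : 1 ≤ N) (a : ℕ → ℝ) (hband : ∀ k, N ≤ k → a k = 0)
    (hp : ∀ (n : ℕ) (x : ℕ → ℝ), 0 ≤ Q n (fun j l => a (if j ≤ l then l - j else j - l)) x)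
    (hodd : ∀ k, 1 ≤ k → (N - k) % 2 = 1 → 1 ≤ |a k|) :
    Real.log N / 8 ≤ a 0 := by
  have h1 := toeplitz N a hband hp
  have h2 := oddlog N hN
  have h3 : ∑ m ∈ Ico 1 N, (if m % 2 = 1 then (1:ℝ) / m else 0) =
      ∑ k ∈ Ico 1 N, (if (N - k) % 2 = 1 then (1:ℝ) / ((N - k : ℕ) : ℝ) else 0) := by
    refine sum_nbij' (fun m => N - m) (fun k => N - k) ?_ ?_ ?_ ?_ ?_
    · intro m hm
      simp only [mem_Ico] at hm ⊢
      omega
    · intro m hm
      simp only [mem_Ico] at hm ⊢
      omega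
    · intro m hm
      simp only [mem_Ico] at hm ⊢
      omega
    · intro m hm
      simp only [mem_Ico] at hm ⊢
      omega
    · intro m hm
      simp only [mem_Ico] at hm ⊢
      have e : N - (N - m) = m := by omega
      rw [e]
  have h4 : ∑ k ∈ Ico 1 N, (if (N - k) % 2 = 1 then (1:ℝ) / ((N - k : ℕ) : ℝ) else 0) ≤
      ∑ k ∈ Ico 1 N, |a k| * (1 / ((N : ℝ) - k)) := by
    refine sum_le_sum fun k hk => ?_
    rw [mem_Ico] at hk
    have hc : (0:ℝ) < (N : ℝ) - k := by
      have : (k : ℝ) < N := by exact_mod_cast hk.2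
      linarith
    split_ifs with ho
    · rw [Nat.cast_sub hk.2.le]
      have h5 := hodd k hk.1 ho
      have h6 : 0 < 1 / ((N : ℝ) - k) := one_div_pos.2 hc
      nlinarith
    · exact mul_nonneg (abs_nonneg _) (one_div_pos.2 hc).le
  linarith

/-- The polynomial. -/
noncomputable def F (N : ℕ) (ε : ℕ → ℝ) (z : ℂ) : ℂ := ∑ i ∈ range N, (ε i : ℂ) * z ^ i

lemma F_cont (N : ℕ) (ε : ℕ → ℝ) : Continuous (F N ε) := by
  unfold F
  exact continuous_finset_sum _ fun i _ => (continuous_const.mul (continuous_pow i))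

lemma quadF (N : ℕ) (ε : ℕ → ℝ) (n : ℕ) (x : ℕ → ℝ) :
    Real.circleAverage (fun z : ℂ => ‖F N ε z‖ ^ 2 * ‖F n x z‖ ^ 2) 0 1 =
    Q n (fun j l => ac N ε (if j ≤ l then l - j else j - l)) x := quad N ε n x

lemma ac_zero (N : ℕ) (ε : ℕ → ℝ) (hε : ∀ k, ε k = 1 ∨ ε k = -1) : ac N ε 0 = N := by
  unfold ac
  have h : ∀ i ∈ range (N - 0), ε i * ε (i + 0) = 1 := by
    intro i _
    rcases hε i with h | h <;> rw [add_zero, h] <;> norm_num
  rw [sum_congr rfl h]
  simp

lemma Q_diag (n : ℕ) (K : ℝ) (x : ℕ → ℝ) :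
    Q n (fun j l => if (if j ≤ l then l - j else j - l) = 0 then K else 0) x =
      K * ∑ j ∈ range n, x j ^ 2 := by
  unfold Q
  rw [mul_sum]
  refine sum_congr rfl fun j hj => ?_
  have e : ∀ l ∈ range n, (if (if j ≤ l then l - j else j - l) = 0 then K else 0) * x j * x l =
      if l = j then K * x j ^ 2 else 0 := by
    intro l _
    by_cases h : l = j
    · subst h
      rw [if_pos rfl, if_pos (by simp)]
      ring
    · rw [if_neg h, if_neg (by split_ifs <;> omega)]
      ring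
  rw [sum_congr rfl e, sum_ite_eq' (range n) j, if_pos hj]

lemma normsq (n : ℕ) (x : ℕ → ℝ) :
    Real.circleAverage (fun z : ℂ => ‖F n x z‖ ^ 2) 0 1 = ∑ j ∈ range n, x j ^ 2 := by
  have h := quadF 1 (fun _ => 1) n x
  have e1 : (fun z : ℂ => ‖F 1 (fun _ => 1) z‖ ^ 2 * ‖F n x z‖ ^ 2) =
      fun z : ℂ => ‖F n x z‖ ^ 2 := by
    funext z
    simp [F]
  have e2 : (fun j l => ac 1 (fun _ => 1) (if j ≤ l then l - j else j - l)) =
      fun j l : ℕ => if (if j ≤ l then l - j else j - l) = 0 then (1:ℝ) else 0 := by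
    funext j l
    generalize (if j ≤ l then l - j else j - l) = k
    unfold ac
    by_cases hk : k = 0
    · subst hk; simp
    · rw [if_neg hk]
      have : 1 - k = 0 := by omega
      rw [this]; simp
  rw [e1, e2, Q_diag, one_mul] at h
  exact h

lemma Q_comb (n : ℕ) (A B : ℕ → ℕ → ℝ) (s : ℝ) (x : ℕ → ℝ) :
    Q n (fun j l => s * A j l - s * B j l) x = s * Q n A x - s * Q n B x := by
  unfold Q
  rw [mul_sum, mul_sum, ← sum_sub_distrib]
  refine sum_congr rfl fun j _ => ?_
  rw [mul_sum, mul_sum, ← sum_sub_distrib]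
  refine sum_congr rfl fun l _ => ?_
  ring

lemma integrable1 (N : ℕ) (ε : ℕ → ℝ) (n : ℕ) (x : ℕ → ℝ) :
    CircleIntegrable (fun z : ℂ => ‖F N ε z‖ ^ 2 * ‖F n x z‖ ^ 2) 0 1 :=
  ContinuousOn.circleIntegrable zero_le_one
    ((((F_cont N ε).norm.pow 2).mul ((F_cont n x).norm.pow 2)).continuousOn)

lemma integrable2 (K : ℝ) (n : ℕ) (x : ℕ → ℝ) :
    CircleIntegrable (fun z : ℂ => K • ‖F n x z‖ ^ 2) 0 1 :=
  ContinuousOn.circleIntegrable zero_le_one
    ((((F_cont n x).norm.pow 2).const_smul K).continuousOn)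

/-- If `|P|² ≤ K` on the circle then `K ≥ N + log N / 8`. -/
theorem upper (N : ℕ) (hN : 1 ≤ N) (ε : ℕ → ℝ) (hε : ∀ k, ε k = 1 ∨ ε k = -1) (K : ℝ)
    (hK : ∀ z : ℂ, ‖z‖ = 1 → ‖F N ε z‖ ^ 2 ≤ K) : (N : ℝ) + Real.log N / 8 ≤ K := by
  have h := core N hN (fun k => 1 * (if k = 0 then K else 0) - 1 * ac N ε k)
    (by
      intro k hk
      show 1 * (if k = 0 then K else 0) - 1 * ac N ε k = 0
      rw [if_neg (by omega)]
      unfold ac
      rw [Nat.sub_eq_zero_of_le hk]
      simp)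
    (by
      intro n x
      have e := Q_comb n (fun j l => if (if j ≤ l then l - j else j - l) = 0 then K else 0)
        (fun j l => ac N ε (if j ≤ l then l - j else j - l)) 1 x
      rw [Q_diag, ← quadF] at e
      have e' : Q n (fun j l => (fun k => 1 * (if k = 0 then K else 0) - 1 * ac N ε k)
        (if j ≤ l then l - j else j - l)) x = 1 * (K * ∑ j ∈ range n, x j ^ 2) -
        1 * Real.circleAverage (fun z : ℂ => ‖F N ε z‖ ^ 2 * ‖F n x z‖ ^ 2) 0 1 := e
      rw [e']
      have hm := Real.circleAverage_mono (integrable1 N ε n x) (integrable2 K n x) (by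
        intro z hz
        rw [abs_one, mem_sphere_zero_iff_norm] at hz
        exact mul_le_mul_of_nonneg_right (hK z hz) (by positivity))
      rw [Real.circleAverage_fun_smul, normsq, smul_eq_mul] at hm
      linarith)
    (by
      intro k hk ho
      show 1 ≤ |1 * (if k = 0 then K else 0) - 1 * ac N ε k|
      rw [if_neg (by omega), mul_zero, zero_sub, one_mul, abs_neg]
      exact ac_odd N ε hε k ho)
  simp only [if_true, one_mul] at h
  rw [ac_zero N ε hε] at h
  linarith

/-- If `|P|² ≥ K` on the circle then `K ≤ N - log N / 8`. -/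
theorem lower (N : ℕ) (hN : 1 ≤ N) (ε : ℕ → ℝ) (hε : ∀ k, ε k = 1 ∨ ε k = -1) (K : ℝ)
    (hK : ∀ z : ℂ, ‖z‖ = 1 → K ≤ ‖F N ε z‖ ^ 2) : K ≤ (N : ℝ) - Real.log N / 8 := by
  have h := core N hN (fun k => -1 * (if k = 0 then K else 0) - -1 * ac N ε k)
    (by
      intro k hk
      show -1 * (if k = 0 then K else 0) - -1 * ac N ε k = 0
      rw [if_neg (by omega)]
      unfold ac
      rw [Nat.sub_eq_zero_of_le hk]
      simp)
    (by
      intro n x
      have e := Q_comb n (fun j l => if (if j ≤ l then l - j else j - l) = 0 then K else 0)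
        (fun j l => ac N ε (if j ≤ l then l - j else j - l)) (-1) x
      rw [Q_diag, ← quadF] at e
      have e' : Q n (fun j l => (fun k => -1 * (if k = 0 then K else 0) - -1 * ac N ε k)
        (if j ≤ l then l - j else j - l)) x = -1 * (K * ∑ j ∈ range n, x j ^ 2) -
        -1 * Real.circleAverage (fun z : ℂ => ‖F N ε z‖ ^ 2 * ‖F n x z‖ ^ 2) 0 1 := e
      rw [e']
      have hm := Real.circleAverage_mono (integrable2 K n x) (integrable1 N ε n x) (by
        intro z hz
        rw [abs_one, mem_sphere_zero_iff_norm] at hz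
        exact mul_le_mul_of_nonneg_right (hK z hz) (by positivity))
      rw [Real.circleAverage_fun_smul, normsq, smul_eq_mul] at hm
      linarith)
    (by
      intro k hk ho
      show 1 ≤ |-1 * (if k = 0 then K else 0) - -1 * ac N ε k|
      rw [if_neg (by omega), mul_zero, zero_sub, neg_mul, neg_neg, one_mul]
      exact ac_odd N ε hε k ho)
  simp only [if_true] at h
  rw [ac_zero N ε hε] at h
  linarith

end P110
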