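import Mathlib

/-! P110: a Schur test bound -/

namespace P110


/-- `∑_{b<m} 1/√(b+1) ≤ 2 √m` -/
theorem schur_sqrt (m : ℕ) :
    ∑ b ∈ Finset.range m, (1 : ℝ) / Real.sqrt ((b : ℝ) + 1) ≤ 2 * Real.sqrt m := by
  induction m with
  | zero => simp
  | succ m ih =>
    rw [Finset.sum_range_succ]
    have h0 : (0 : ℝ) ≤ m := Nat.cast_nonneg m
    have hs : 0 < Real.sqrt ((m : ℝ) + 1) := Real.sqrt_pos.2 (by linarith)
    have h1 : Real.sqrt ((m : ℝ) + 1) ^ 2 = (m : ℝ) + 1 := Real.sq_sqrt (by linarith)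
    have h2 : Real.sqrt (m : ℝ) ^ 2 = (m : ℝ) := Real.sq_sqrt h0
    have h3 : 0 ≤ Real.sqrt (m : ℝ) := Real.sqrt_nonneg _
    have h4 : 1 / Real.sqrt ((m : ℝ) + 1) ≤ 2 * Real.sqrt ((m : ℝ) + 1) - 2 * Real.sqrt m := by
      rw [div_le_iff₀ hs]
      nlinarith [sq_nonneg (Real.sqrt ((m : ℝ) + 1) - Real.sqrt m)]
    push_cast
    linarith

/-- the tail: `∑_{b=k}^{m-1} 1/((b+1)√(b+1)) ≤ 2/√k` for `k ≥ 1` -/
theorem schur_tail (k j : ℕ) (hk : 1 ≤ k) :
    ∑ b ∈ Finset.range j, (1 : ℝ) / (((k + b : ℕ) + 1 : ℝ) * Real.sqrt (((k + b : ℕ) : ℝ) + 1))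
      ≤ 2 / Real.sqrt k - 2 / Real.sqrt ((k + j : ℕ) : ℝ) := by
  induction j with
  | zero => simp
  | succ j ih =>
    rw [Finset.sum_range_succ]
    have hN : (1 : ℝ) ≤ ((k + j : ℕ) : ℝ) := by exact_mod_cast (by omega : 1 ≤ k + j)
    have e : ((k + (j + 1) : ℕ) : ℝ) = ((k + j : ℕ) : ℝ) + 1 := by push_cast; ring
    rw [e]
    generalize ((k + j : ℕ) : ℝ) = N at *
    have hp : 0 < Real.sqrt N := Real.sqrt_pos.2 (by linarith)
    have hq : 0 < Real.sqrt (N + 1) := Real.sqrt_pos.2 (by linarith)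
    have h1 : Real.sqrt N ^ 2 = N := Real.sq_sqrt (by linarith)
    have h2 : Real.sqrt (N + 1) ^ 2 = N + 1 := Real.sq_sqrt (by linarith)
    have hle : Real.sqrt N ≤ Real.sqrt (N + 1) := Real.sqrt_le_sqrt (by linarith)
    generalize Real.sqrt N = p at *
    generalize Real.sqrt (N + 1) = q at *
    have h3 : 1 / ((N + 1) * q) ≤ 2 / p - 2 / q := by
      rw [div_sub_div _ _ hp.ne' hq.ne', div_le_div_iff₀ (by positivity) (by positivity)]
      rw [← h2]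
      have h4 : q ^ 2 - p ^ 2 = 1 := by linarith
      have h5 : (q - p) * (q + p) = 1 := by nlinarith
      have h6 : 0 < q - p := by
        by_contra h
        push Not at h
        nlinarith
      have h7 : p * (q + p) ≤ 2 * q ^ 2 := by nlinarith
      have h8 : p * q * ((q - p) * (q + p)) ≤ 2 * q ^ 3 * (q - p) := by
        have := mul_le_mul_of_nonneg_left h7 (mul_nonneg hq.le h6.le)
        nlinarith
      rw [h5] at h8
      nlinarith
    linarith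

theorem schur4 (a m : ℕ) : ∑ b ∈ Finset.range m, (1 : ℝ) / (((a : ℝ) + b + 1) * Real.sqrt ((b : ℝ) + 1))
    ≤ 4 / Real.sqrt ((a : ℝ) + 1) := by
  have ha : (0 : ℝ) ≤ a := Nat.cast_nonneg a
  have hs : 0 < Real.sqrt ((a : ℝ) + 1) := Real.sqrt_pos.2 (by linarith)
  have hs2 : Real.sqrt ((a : ℝ) + 1) ^ 2 = (a : ℝ) + 1 := Real.sq_sqrt (by linarith)
  -- enlarge the range
  have hnn : ∀ b : ℕ, 0 ≤ (1 : ℝ) / (((a : ℝ) + b + 1) * Real.sqrt ((b : ℝ) + 1)) := by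
    intro b
    have : (0 : ℝ) ≤ b := Nat.cast_nonneg b
    positivity
  have hle : ∑ b ∈ Finset.range m, (1 : ℝ) / (((a : ℝ) + b + 1) * Real.sqrt ((b : ℝ) + 1))
      ≤ ∑ b ∈ Finset.range (a + 1 + m),
        (1 : ℝ) / (((a : ℝ) + b + 1) * Real.sqrt ((b : ℝ) + 1)) :=
    Finset.sum_le_sum_of_subset_of_nonneg
      (fun x hx => Finset.mem_range.2 (by have := Finset.mem_range.1 hx; omega)) fun b _ _ => hnn b
  refine le_trans hle ?_
  rw [Finset.sum_range_add]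
  -- first part
  have h1 : ∑ b ∈ Finset.range (a + 1), (1 : ℝ) / (((a : ℝ) + b + 1) * Real.sqrt ((b : ℝ) + 1))
      ≤ 2 / Real.sqrt ((a : ℝ) + 1) := by
    calc ∑ b ∈ Finset.range (a + 1), (1 : ℝ) / (((a : ℝ) + b + 1) * Real.sqrt ((b : ℝ) + 1))
        ≤ ∑ b ∈ Finset.range (a + 1), 1 / ((a : ℝ) + 1) * (1 / Real.sqrt ((b : ℝ) + 1)) := by
          refine Finset.sum_le_sum fun b _ => ?_
          have hb : (0 : ℝ) ≤ b := Nat.cast_nonneg b
          rw [one_div_mul_one_div]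
          apply one_div_le_one_div_of_le
          · positivity
          · exact mul_le_mul_of_nonneg_right (by linarith) (Real.sqrt_nonneg _)
      _ = 1 / ((a : ℝ) + 1) * ∑ b ∈ Finset.range (a + 1), 1 / Real.sqrt ((b : ℝ) + 1) := by
          rw [Finset.mul_sum]
      _ ≤ 1 / ((a : ℝ) + 1) * (2 * Real.sqrt ((a + 1 : ℕ) : ℝ)) :=
          mul_le_mul_of_nonneg_left (schur_sqrt (a + 1)) (by positivity)
      _ = 2 / Real.sqrt ((a : ℝ) + 1) := by
          push_cast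
          rw [← hs2, Real.sqrt_sq hs.le]
          field_simp
  -- second part
  have h2 : ∑ b ∈ Finset.range m,
      (1 : ℝ) / (((a : ℝ) + ((a + 1 + b : ℕ) : ℝ) + 1) * Real.sqrt (((a + 1 + b : ℕ) : ℝ) + 1))
      ≤ 2 / Real.sqrt ((a : ℝ) + 1) := by
    calc ∑ b ∈ Finset.range m,
        (1 : ℝ) / (((a : ℝ) + ((a + 1 + b : ℕ) : ℝ) + 1) * Real.sqrt (((a + 1 + b : ℕ) : ℝ) + 1))
        ≤ ∑ b ∈ Finset.range m,
          (1 : ℝ) / (((a + 1 + b : ℕ) + 1 : ℝ) * Real.sqrt (((a + 1 + b : ℕ) : ℝ) + 1)) := by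
          refine Finset.sum_le_sum fun b _ => ?_
          have hb : (0 : ℝ) ≤ ((a + 1 + b : ℕ) : ℝ) := Nat.cast_nonneg _
          apply one_div_le_one_div_of_le
          · positivity
          · exact mul_le_mul_of_nonneg_right (by linarith) (Real.sqrt_nonneg _)
      _ ≤ 2 / Real.sqrt ((a + 1 : ℕ) : ℝ) - 2 / Real.sqrt ((a + 1 + m : ℕ) : ℝ) :=
          schur_tail (a + 1) m (by omega)
      _ ≤ 2 / Real.sqrt ((a + 1 : ℕ) : ℝ) := by
          have : 0 ≤ 2 / Real.sqrt ((a + 1 + m : ℕ) : ℝ) := by positivity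
          linarith
      _ = 2 / Real.sqrt ((a : ℝ) + 1) := by push_cast; rfl
  have e : (4 : ℝ) / Real.sqrt ((a : ℝ) + 1)
      = 2 / Real.sqrt ((a : ℝ) + 1) + 2 / Real.sqrt ((a : ℝ) + 1) := by ring
  rw [e]
  exact add_le_add h1 h2

end P110
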