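import Mathlib

namespace P110

open Finset

/-- Quadratic form of the `n × n` corner. -/
def Q (n : ℕ) (A : ℕ → ℕ → ℝ) (x : ℕ → ℝ) : ℝ :=
  ∑ j ∈ range n, ∑ l ∈ range n, A j l * x j * x l

/-- The weight `1 / (N - (l - j))` on pairs `j < l < j + N`. -/
noncomputable def ker (N j l : ℕ) : ℝ :=
  if j < l ∧ l < j + N then 1 / ((N : ℝ) - ((l : ℝ) - j)) else 0

lemma ker_nonneg (N j l : ℕ) : 0 ≤ ker N j l := by
  unfold ker
  split_ifs with h
  · have h1 : (l : ℝ) < j + N := by exact_mod_cast h.2
    exact (one_div_pos.2 (by linarith)).le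
  · exact le_rfl

lemma Q_add (n : ℕ) (A : ℕ → ℕ → ℝ) (hs : ∀ j l, A j l = A l j) (x : ℕ → ℝ) (i : ℕ)
    (hi : i < n) (t : ℝ) :
    Q n A (fun j => x j + (if j = i then t else 0)) =
      Q n A x + 2 * t * (∑ l ∈ range n, A i l * x l) + t ^ 2 * A i i := by
  have hi' : i ∈ range n := mem_range.2 hi
  have e : ∀ j ∈ range n, ∑ l ∈ range n, A j l * (x j + (if j = i then t else 0)) *
      (x l + (if l = i then t else 0)) =
      (∑ l ∈ range n, A j l * x j * x l) + (if j = i then t * ∑ l ∈ range n, A j l * x l else 0)
        + A j i * x j * t + (if j = i then t * A j i * t else 0) := by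
    intro j _
    have e1 : ∀ l ∈ range n, A j l * (x j + (if j = i then t else 0)) *
      (x l + (if l = i then t else 0)) = A j l * x j * x l +
        (if j = i then t else 0) * (A j l * x l) + (if l = i then A j l * x j * t else 0) +
        (if l = i then A j l * (if j = i then t else 0) * t else 0) := by
      intro l _
      split_ifs <;> ring
    rw [sum_congr rfl e1, sum_add_distrib, sum_add_distrib, sum_add_distrib, ← mul_sum,
      sum_ite_eq' (range n) i, sum_ite_eq' (range n) i, if_pos hi', if_pos hi']
    split_ifs <;> ring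
  unfold Q
  rw [sum_congr rfl e, sum_add_distrib, sum_add_distrib, sum_add_distrib,
    sum_ite_eq' (range n) i, sum_ite_eq' (range n) i, if_pos hi', if_pos hi']
  have e2 : ∑ j ∈ range n, A j i * x j * t = t * ∑ l ∈ range n, A i l * x l := by
    rw [mul_sum]
    refine sum_congr rfl fun j _ => ?_
    rw [hs j i]; ring
  rw [e2]
  ring

lemma diag_nonneg (n : ℕ) (A : ℕ → ℕ → ℝ) (hs : ∀ j l, A j l = A l j)
    (hp : ∀ x, 0 ≤ Q n A x) (i : ℕ) (hi : i < n) : 0 ≤ A i i := by
  have h := hp (fun j => (0 : ℝ) + (if j = i then 1 else 0))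
  have h2 := Q_add n A hs (fun _ => 0) i hi 1
  rw [h2] at h
  have h3 : Q n A (fun _ => 0) = 0 := by simp [Q]
  rw [h3] at h
  simpa using h

lemma row_zero (n : ℕ) (A : ℕ → ℕ → ℝ) (hs : ∀ j l, A j l = A l j)
    (hp : ∀ x, 0 ≤ Q n A x) (i : ℕ) (hi : i < n) (h0 : A i i = 0) (l : ℕ) (hl : l < n) :
    A i l = 0 := by
  have h : ∀ t : ℝ, 0 ≤ A l l + 2 * t * A i l := by
    intro t
    have h := hp (fun j => (fun k => (0 : ℝ) + (if k = l then 1 else 0)) j +
      (if j = i then t else 0))
    rw [Q_add n A hs (fun k => (0 : ℝ) + (if k = l then 1 else 0)) i hi t,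
      Q_add n A hs (fun _ => 0) l hl 1] at h
    have h3 : Q n A (fun _ => 0) = 0 := by simp [Q]
    have hl' : l ∈ range n := mem_range.2 hl
    rw [h3, h0] at h
    simp only [zero_add, mul_ite, mul_one, mul_zero, sum_const_zero, sum_ite_eq', if_pos hl',
      add_zero, one_pow, one_mul] at h
    linarith
  by_contra hne
  have h1 := h (-(A l l + 1) / (2 * A i l))
  have h2 : 2 * (-(A l l + 1) / (2 * A i l)) * A i l = -(A l l + 1) := by
    field_simp
  rw [h2] at h1
  linarith

/-- The weighted sum of the entries. -/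
noncomputable def E (N n : ℕ) (A : ℕ → ℕ → ℝ) : ℝ :=
  ∑ j ∈ range n, ∑ l ∈ range n, |A j l| * ker N j l

/-- Elimination: if the window inequality holds, so does the banded inequality. -/
lemma banded (N n : ℕ)
    (hwin : ∀ (i : ℕ) (u : ℕ → ℝ), (∀ j < n, j < i → u j = 0) → (∀ j < n, i + N ≤ j → u j = 0) →
      ∑ j ∈ range n, ∑ l ∈ range n, |u j| * |u l| * ker N j l ≤ 4 * ∑ j ∈ range n, u j ^ 2) :
    ∀ m : ℕ, m ≤ n → ∀ A : ℕ → ℕ → ℝ, (∀ j l, A j l = A l j) →
      (∀ j l, j + N ≤ l → A j l = 0) → (∀ x, 0 ≤ Q n A x) →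
      (∀ j l, j < n → l < n → j + m < n → A j l = 0) →
      E N n A ≤ 4 * ∑ j ∈ range n, A j j := by
  intro m
  induction m with
  | zero =>
    intro _ A hs hb hp hz
    have h1 : E N n A = 0 := by
      unfold E
      refine sum_eq_zero fun j hj => sum_eq_zero fun l hl => ?_
      rw [hz j l (mem_range.1 hj) (mem_range.1 hl) (by simpa using mem_range.1 hj)]
      simp
    have h2 : ∑ j ∈ range n, A j j = 0 := by
      refine sum_eq_zero fun j hj => ?_
      exact hz j j (mem_range.1 hj) (mem_range.1 hj) (by simpa using mem_range.1 hj)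
    rw [h1, h2]; simp
  | succ m ih =>
    intro hmn A hs hb hp hz
    obtain ⟨i, hi⟩ : ∃ i, i = n - (m + 1) := ⟨_, rfl⟩
    have hin : i < n := by omega
    have hA0 : 0 ≤ A i i := diag_nonneg n A hs hp i hin
    let A' : ℕ → ℕ → ℝ := fun j l => A j l - A i j * A i l / A i i
    let u : ℕ → ℝ := fun j => A i j / Real.sqrt (A i i)
    have hu : ∀ j l, u j * u l = A i j * A i l / A i i := by
      intro j l
      show A i j / Real.sqrt (A i i) * (A i l / Real.sqrt (A i i)) = _
      rw [div_mul_div_comm, Real.mul_self_sqrt hA0]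
    have hs' : ∀ j l, A' j l = A' l j := by
      intro j l
      show A j l - A i j * A i l / A i i = A l j - A i l * A i j / A i i
      rw [hs j l, mul_comm (A i j)]
    have hrow : ∀ j, j < n → j < i → A i j = 0 := by
      intro j hj hji
      rw [hs i j]
      exact hz j i hj hin (by omega)
    have hb' : ∀ j l, j + N ≤ l → A' j l = 0 := by
      intro j l hjl
      show A j l - A i j * A i l / A i i = 0
      rw [hb j l hjl]
      rcases Nat.lt_or_ge j i with hji | hji
      · rcases Nat.lt_or_ge j n with hjn | hjn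
        · rw [hrow j hjn hji]; simp
        · omega
      · rw [hb i l (by omega)]; simp
    have hQ' : ∀ x, 0 ≤ Q n A' x := by
      intro x
      have e : Q n A' x = Q n A x - (∑ l ∈ range n, A i l * x l) ^ 2 / A i i := by
        have e1 : (∑ l ∈ range n, A i l * x l) ^ 2 / A i i =
            ∑ j ∈ range n, ∑ l ∈ range n, A i j * A i l / A i i * x j * x l := by
          rw [pow_two, sum_mul_sum, sum_div]
          refine sum_congr rfl fun j _ => ?_
          rw [sum_div]
          refine sum_congr rfl fun l _ => ?_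
          ring
        rw [e1]
        unfold Q
        rw [← sum_sub_distrib]
        refine sum_congr rfl fun j _ => ?_
        rw [← sum_sub_distrib]
        refine sum_congr rfl fun l _ => ?_
        show (A j l - A i j * A i l / A i i) * x j * x l = _
        ring
      rw [e]
      rcases eq_or_ne (A i i) 0 with h0 | h0
      · rw [h0, div_zero, sub_zero]; exact hp x
      · have h := hp (fun j => x j +
          (if j = i then (-(∑ l ∈ range n, A i l * x l) / A i i) else 0))
        rw [Q_add n A hs x i hin] at h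
        have e3 : 2 * (-(∑ l ∈ range n, A i l * x l) / A i i) * (∑ l ∈ range n, A i l * x l) +
            (-(∑ l ∈ range n, A i l * x l) / A i i) ^ 2 * A i i =
            - ((∑ l ∈ range n, A i l * x l) ^ 2 / A i i) := by
          field_simp
          ring
        linarith
    have hz' : ∀ j l, j < n → l < n → j + m < n → A' j l = 0 := by
      intro j l hj hl hjm
      show A j l - A i j * A i l / A i i = 0
      rcases Nat.lt_or_ge j i with hji | hji
      · rw [hz j l hj hl (by omega), hrow j hj hji]; simp
      · have hji' : j = i := by omega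
        subst hji'
        rcases eq_or_ne (A j j) 0 with h0 | h0
        · rw [row_zero n A hs hp j hj h0 l hl]; simp
        · rw [mul_div_assoc, mul_div_cancel₀ _ h0, sub_self]
    have hIH := ih (by omega) A' hs' hb' hQ' hz'
    have hW := hwin i u (by
      intro j hj hji
      show A i j / _ = 0
      rw [hrow j hj hji, zero_div]) (by
      intro j hj hji
      show A i j / _ = 0
      rw [hb i j hji, zero_div])
    have hE : E N n A ≤ E N n A' + ∑ j ∈ range n, ∑ l ∈ range n, |u j| * |u l| * ker N j l := by
      unfold E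
      rw [← sum_add_distrib]
      refine sum_le_sum fun j _ => ?_
      rw [← sum_add_distrib]
      refine sum_le_sum fun l _ => ?_
      rw [← add_mul]
      refine mul_le_mul_of_nonneg_right ?_ (ker_nonneg N j l)
      rw [← abs_mul, hu j l]
      have e : A j l = A' j l + A i j * A i l / A i i := by
        show A j l = A j l - A i j * A i l / A i i + A i j * A i l / A i i
        ring
      rw [e]
      exact abs_add_le _ _
    have hT : ∑ j ∈ range n, A j j = ∑ j ∈ range n, A' j j + ∑ j ∈ range n, u j ^ 2 := by
      rw [← sum_add_distrib]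
      refine sum_congr rfl fun j _ => ?_
      rw [pow_two, hu j j]
      show A j j = A j j - A i j * A i j / A i i + A i j * A i j / A i i
      ring
    rw [hT]
    linarith

end P110
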