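import Vale.Agent.P110.Toep
import Vale.Agent.P110.Schur

namespace P110

open Finset

lemma pair_bound (a b : ℕ) (x y : ℝ) :
    x * y * (1 / ((a:ℝ) + b + 1)) ≤
      1 / 2 * (x ^ 2 * (Real.sqrt ((a:ℝ) + 1) * (1 / (((a:ℝ)+b+1) * Real.sqrt ((b:ℝ)+1))))) +
      1 / 2 * (y ^ 2 * (Real.sqrt ((b:ℝ) + 1) * (1 / (((b:ℝ)+a+1) * Real.sqrt ((a:ℝ)+1))))) := by
  have ha : 0 < Real.sqrt ((a:ℝ) + 1) := Real.sqrt_pos.2 (by positivity)
  have hb : 0 < Real.sqrt ((b:ℝ) + 1) := Real.sqrt_pos.2 (by positivity)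
  obtain ⟨α, hα⟩ : ∃ α, α = Real.sqrt ((a:ℝ) + 1) := ⟨_, rfl⟩
  obtain ⟨β, hβ⟩ : ∃ β, β = Real.sqrt ((b:ℝ) + 1) := ⟨_, rfl⟩
  rw [← hα, ← hβ]
  rw [← hα] at ha
  rw [← hβ] at hb
  have hs : 0 < (a:ℝ) + b + 1 := by positivity
  have e : 1 / 2 * (x ^ 2 * (α * (1 / (((a:ℝ)+b+1) * β)))) +
      1 / 2 * (y ^ 2 * (β * (1 / (((b:ℝ)+a+1) * α)))) - x * y * (1 / ((a:ℝ) + b + 1)) =
      (x * α - y * β) ^ 2 / (2 * ((a:ℝ) + b + 1) * α * β) := by
    rw [add_comm (b:ℝ) (a:ℝ)]
    field_simp
    ring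
  have h2 : 0 ≤ (x * α - y * β) ^ 2 / (2 * ((a:ℝ) + b + 1) * α * β) := by positivity
  linarith

/-- The Hilbert-type inequality on a window of length `N`. -/
lemma window (N n i : ℕ) (u : ℕ → ℝ) (h1 : ∀ j < n, j < i → u j = 0)
    (h2 : ∀ j < n, i + N ≤ j → u j = 0) :
    ∑ j ∈ range n, ∑ l ∈ range n, |u j| * |u l| * ker N j l ≤ 4 * ∑ j ∈ range n, u j ^ 2 := by
  -- weights
  let S : ℕ → ℕ → ℝ := fun a b =>
    Real.sqrt ((a:ℝ) + 1) * (1 / (((a:ℝ)+b+1) * Real.sqrt ((b:ℝ)+1)))
  have hS0 : ∀ a b, 0 ≤ S a b := fun a b => by positivity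
  have hS : ∀ a m, ∑ b ∈ range m, S a b ≤ 4 := by
    intro a m
    have ha : 0 < Real.sqrt ((a:ℝ) + 1) := Real.sqrt_pos.2 (by positivity)
    have h := schur4 a m
    have h' := mul_le_mul_of_nonneg_left h ha.le
    rw [mul_sum, mul_div_cancel₀ _ ha.ne'] at h'
    exact h'
  let W : ℕ → ℕ → Prop := fun j l => i ≤ j ∧ j < l ∧ l < i + N
  have key : ∀ j ∈ range n, ∀ l ∈ range n, |u j| * |u l| * ker N j l ≤
      1 / 2 * (u j ^ 2 * (if i ≤ j ∧ j < l ∧ l < i + N then S (j - i) (i + N - 1 - l) else 0)) +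
      1 / 2 * (u l ^ 2 * (if i ≤ j ∧ j < l ∧ l < i + N then S (i + N - 1 - l) (j - i) else 0)) := by
    intro j hj l hl
    rw [mem_range] at hj hl
    by_cases hw : i ≤ j ∧ j < l ∧ l < i + N
    · rw [if_pos hw, if_pos hw]
      have hk : ker N j l = 1 / (((j - i : ℕ):ℝ) + ((i + N - 1 - l : ℕ) : ℝ) + 1) := by
        unfold ker
        rw [if_pos ⟨hw.2.1, by omega⟩]
        congr 1
        have e : (j - i) + (i + N - 1 - l) + 1 + l = N + j := by omega
        have e' : (((j - i : ℕ):ℝ) + ((i + N - 1 - l : ℕ) : ℝ) + 1 + l) = N + j := by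
          exact_mod_cast e
        linarith
      rw [hk]
      have h := pair_bound (j - i) (i + N - 1 - l) |u j| |u l|
      rw [sq_abs, sq_abs] at h
      exact h
    · rw [if_neg hw, if_neg hw]
      simp only [mul_zero, add_zero]
      rcases Nat.lt_or_ge j i with hji | hji
      · rw [h1 j hj hji]; simp
      · rcases Nat.lt_or_ge l (i + N) with hli | hli
        · have : ¬ j < l := fun h => hw ⟨hji, h, hli⟩
          unfold ker
          rw [if_neg (fun h => this h.1)]
          simp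
        · rw [h2 l hl hli]; simp
  have step1 : ∑ j ∈ range n, ∑ l ∈ range n, |u j| * |u l| * ker N j l ≤
      ∑ j ∈ range n, ∑ l ∈ range n,
        (1 / 2 * (u j ^ 2 * (if i ≤ j ∧ j < l ∧ l < i + N then S (j - i) (i + N - 1 - l) else 0)) +
      1 / 2 * (u l ^ 2 * (if i ≤ j ∧ j < l ∧ l < i + N then S (i + N - 1 - l) (j - i) else 0))) :=
    sum_le_sum fun j hj => sum_le_sum fun l hl => key j hj l hl
  have part1 : ∑ j ∈ range n, ∑ l ∈ range n,
        1 / 2 * (u j ^ 2 * (if i ≤ j ∧ j < l ∧ l < i + N then S (j - i) (i + N - 1 - l) else 0))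
      ≤ ∑ j ∈ range n, 2 * u j ^ 2 := by
    refine sum_le_sum fun j _ => ?_
    have h : ∑ l ∈ range n, (if i ≤ j ∧ j < l ∧ l < i + N then S (j - i) (i + N - 1 - l) else 0)
        ≤ 4 := by
      rw [← sum_filter]
      have hinj : Set.InjOn (fun l => i + N - 1 - l)
          ((range n).filter fun l => i ≤ j ∧ j < l ∧ l < i + N) := by
        intro l hl l' hl' he
        simp only [coe_filter, mem_range, Set.mem_ofPred_eq] at hl hl'
        simp only at he
        omega
      rw [← sum_image (f := fun b => S (j - i) b) (g := fun l => i + N - 1 - l) hinj]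
      refine (sum_le_sum_of_subset_of_nonneg (t := range N) ?_ (fun b _ _ => hS0 _ _)).trans
        (hS _ _)
      intro b hb
      simp only [mem_image, mem_filter, mem_range] at hb ⊢
      omega
    rw [← mul_sum, ← mul_sum]
    nlinarith [sq_nonneg (u j)]
  have part2 : ∑ j ∈ range n, ∑ l ∈ range n,
        1 / 2 * (u l ^ 2 * (if i ≤ j ∧ j < l ∧ l < i + N then S (i + N - 1 - l) (j - i) else 0))
      ≤ ∑ l ∈ range n, 2 * u l ^ 2 := by
    rw [sum_comm]
    refine sum_le_sum fun l _ => ?_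
    have h : ∑ j ∈ range n, (if i ≤ j ∧ j < l ∧ l < i + N then S (i + N - 1 - l) (j - i) else 0)
        ≤ 4 := by
      rw [← sum_filter]
      have hinj : Set.InjOn (fun j => j - i)
          ((range n).filter fun j => i ≤ j ∧ j < l ∧ l < i + N) := by
        intro j hj j' hj' he
        simp only [coe_filter, mem_range, Set.mem_ofPred_eq] at hj hj'
        simp only at he
        omega
      rw [← sum_image (f := fun b => S (i + N - 1 - l) b) (g := fun j => j - i) hinj]
      refine (sum_le_sum_of_subset_of_nonneg (t := range N) ?_ (fun b _ _ => hS0 _ _)).trans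
        (hS _ _)
      intro b hb
      simp only [mem_image, mem_filter, mem_range] at hb ⊢
      omega
    rw [← mul_sum, ← mul_sum]
    nlinarith [sq_nonneg (u l)]
  refine step1.trans ?_
  simp_rw [sum_add_distrib]
  calc _ ≤ ∑ j ∈ range n, 2 * u j ^ 2 + ∑ l ∈ range n, 2 * u l ^ 2 := add_le_add part1 part2
    _ = 4 * ∑ j ∈ range n, u j ^ 2 := by
      rw [← mul_sum]; ring

/-- Banded Toeplitz inequality. -/
theorem toeplitz (N : ℕ) (a : ℕ → ℝ) (hband : ∀ k, N ≤ k → a k = 0)
    (hp : ∀ (n : ℕ) (x : ℕ → ℝ), 0 ≤ Q n (fun j l => a (if j ≤ l then l - j else j - l)) x) :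
    ∑ k ∈ Ico 1 N, |a k| * (1 / ((N : ℝ) - k)) ≤ 4 * a 0 := by
  obtain ⟨S, hS⟩ : ∃ S, S = ∑ k ∈ Ico 1 N, |a k| * (1 / ((N : ℝ) - k)) := ⟨_, rfl⟩
  obtain ⟨S', hS'⟩ : ∃ S', S' = ∑ k ∈ Ico 1 N, (k : ℝ) * (|a k| * (1 / ((N : ℝ) - k))) :=
    ⟨_, rfl⟩
  have main : ∀ n : ℕ, N ≤ n → (n : ℝ) * S - S' ≤ 4 * (n * a 0) := by
    intro n hn
    have h := banded N n (fun i u h1 h2 => window N n i u h1 h2) n le_rfl
      (fun j l => a (if j ≤ l then l - j else j - l))
      (by
        intro j l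
        rcases lt_trichotomy j l with h | h | h
        · simp only [if_pos h.le, if_neg (Nat.not_le.2 h)]
        · subst h; rfl
        · simp only [if_pos h.le, if_neg (Nat.not_le.2 h)])
      (by
        intro j l h
        show a (if j ≤ l then l - j else j - l) = 0
        rw [if_pos (by omega)]
        exact hband _ (by omega))
      (hp n)
      (by intro j l _ _ h; omega)
    have hR : ∑ j ∈ range n, (fun j l => a (if j ≤ l then l - j else j - l)) j j = n * a 0 := by
      simp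
    rw [hR] at h
    refine le_trans ?_ h
    unfold E
    have e1 : (n : ℝ) * S - S' = ∑ k ∈ Ico 1 N, ((n - k : ℕ) : ℝ) * (|a k| * (1 / ((N : ℝ) - k))) := by
      rw [hS, hS', mul_sum, ← sum_sub_distrib]
      refine sum_congr rfl fun k hk => ?_
      rw [mem_Ico] at hk
      rw [Nat.cast_sub (by omega), sub_mul]
    rw [e1]
    have e2 : ∀ k ∈ Ico 1 N, ((n - k : ℕ) : ℝ) * (|a k| * (1 / ((N : ℝ) - k))) =
        ∑ j ∈ range n, ∑ l ∈ range n, (if l = j + k then |a k| * (1 / ((N : ℝ) - k)) else 0) := by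
      intro k hk
      rw [mem_Ico] at hk
      have e3 : ∀ j ∈ range n, ∑ l ∈ range n,
          (if l = j + k then |a k| * (1 / ((N : ℝ) - k)) else 0) =
          if j < n - k then |a k| * (1 / ((N : ℝ) - k)) else 0 := by
        intro j hj
        rw [sum_ite_eq' (range n) (j + k)]
        refine if_congr ?_ rfl rfl
        rw [mem_range]
        omega
      rw [sum_congr rfl e3, ← sum_filter, sum_const, nsmul_eq_mul]
      have e4 : (range n).filter (fun j => j < n - k) = range (n - k) := by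
        ext j
        simp only [mem_filter, mem_range]
        omega
      rw [e4, card_range]
    rw [sum_congr rfl e2, sum_comm]
    refine sum_le_sum fun j hj => ?_
    rw [sum_comm]
    refine sum_le_sum fun l hl => ?_
    show _ ≤ |a (if j ≤ l then l - j else j - l)| * ker N j l
    by_cases hjl : j < l ∧ l < j + N
    · unfold ker
      rw [if_pos hjl, if_pos hjl.1.le]
      have e5 : ∀ k ∈ Ico 1 N, (if l = j + k then |a k| * (1 / ((N : ℝ) - k)) else 0) =
          if k = l - j then |a (l - j)| * (1 / ((N : ℝ) - ((l : ℝ) - j))) else 0 := by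
        intro k _
        by_cases hk : l = j + k
        · have hk' : k = l - j := by omega
          rw [if_pos hk, if_pos hk', hk', Nat.cast_sub hjl.1.le]
        · rw [if_neg hk, if_neg (by omega)]
      rw [sum_congr rfl e5, sum_ite_eq' (Ico 1 N) (l - j)]
      rw [if_pos (mem_Ico.2 ⟨by omega, by omega⟩)]
    · have e6 : ∑ k ∈ Ico 1 N, (if l = j + k then |a k| * (1 / ((N : ℝ) - k)) else 0) = 0 := by
        refine sum_eq_zero fun k hk => ?_
        rw [mem_Ico] at hk
        rw [if_neg (by omega)]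
      rw [e6]
      exact mul_nonneg (abs_nonneg _) (ker_nonneg N j l)
  rw [← hS]
  by_contra hcon
  push Not at hcon
  have hd : 0 < S - 4 * a 0 := by linarith
  obtain ⟨n, hn⟩ := exists_nat_gt (S' / (S - 4 * a 0))
  rw [div_lt_iff₀ hd] at hn
  have h := main (max n N) (le_max_right _ _)
  have h2 : (n : ℝ) ≤ ((max n N : ℕ) : ℝ) := by exact_mod_cast le_max_left _ _
  nlinarith

end P110
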